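import Vale.Agent.P201.Bd3.B4

/-! P186W94: the Stokes inequality does not depend on the generating set. -/

namespace Vale.Agent.P186W94

open SimpleGraph Vale.Agent.P186.Hyp

variable {V : Type} {Γ Γ' : SimpleGraph V}

/-- the sum along a walk -/
def st (f g : V → ℤ) {x y : V} (p : Γ.Walk x y) : ℤ :=
  (p.darts.map (fun d => (f d.fst + f d.snd) * (g d.snd - g d.fst))).sum

theorem st_nil (f g : V → ℤ) (x : V) : st f g (Walk.nil : Γ.Walk x x) = 0 := rfl

theorem st_cons (f g : V → ℤ) {x y z : V} (h : Γ.Adj x y) (p : Γ.Walk y z) :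
    st f g (Walk.cons h p) = (f x + f y) * (g y - g x) + st f g p := by
  simp [st]

theorem st_append (f g : V → ℤ) {x y z : V} (p : Γ.Walk x y) (q : Γ.Walk y z) :
    st f g (p.append q) = st f g p + st f g q := by
  simp [st, Walk.darts_append]

theorem st_sum {ι : Type} (s : Finset ι) (f g : ι → V → ℤ) {x y : V} (p : Γ.Walk x y) :
    st (fun v => ∑ i ∈ s, f i v) (fun v => ∑ j ∈ s, g j v) p =
      ∑ i ∈ s, ∑ j ∈ s, st (f i) (g j) p := by
  induction p with
  | nil => simp [st_nil]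
  | cons h p ih =>
    simp only [st_cons, ih, Finset.sum_add_distrib]
    rw [← Finset.sum_add_distrib, ← Finset.sum_sub_distrib, Finset.sum_mul_sum]

theorem hermite {K : ℕ} (hK : 0 < K) (n : ℤ) : ∑ i ∈ Finset.range K, (n + i) / (K : ℤ) = n := by
  have hK' : (K : ℤ) ≠ 0 := by exact_mod_cast hK.ne'
  have step : ∀ m : ℤ, ∑ i ∈ Finset.range K, (m + 1 + i) / (K : ℤ) =
      ∑ i ∈ Finset.range K, (m + i) / (K : ℤ) + 1 := fun m => by
    have h1 := Finset.sum_range_succ (fun i : ℕ => (m + i) / (K : ℤ)) K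
    have h2 := Finset.sum_range_succ' (fun i : ℕ => (m + i) / (K : ℤ)) K
    have h3 : (m + K) / (K : ℤ) = m / K + 1 := by
      rw [Int.add_ediv_of_dvd_right dvd_rfl, Int.ediv_self hK']
    have h4 : ∑ i ∈ Finset.range K, (m + 1 + i) / (K : ℤ) =
        ∑ i ∈ Finset.range K, (m + ((i + 1 : ℕ) : ℤ)) / (K : ℤ) :=
      Finset.sum_congr rfl fun i _ => by congr 1; push_cast; ring
    rw [h4]
    simp only [Nat.cast_zero, add_zero] at h2
    linarith
  induction n using Int.induction_on with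
  | zero =>
    refine Finset.sum_eq_zero fun i hi => ?_
    rw [zero_add]
    exact Int.ediv_eq_zero_of_lt (by positivity) (by exact_mod_cast Finset.mem_range.1 hi)
  | succ n ih => rw [step, ih]
  | pred n ih =>
    have := step (-n - 1)
    rw [show -(n : ℤ) - 1 + 1 = -n by ring, ih] at this
    linarith

theorem div_lip {K : ℕ} (hK : 0 < K) {a b : ℤ} (h : |a - b| ≤ K) :
    |a / (K : ℤ) - b / (K : ℤ)| ≤ 1 := by
  have hK' : (0 : ℤ) < K := by exact_mod_cast hK
  have k : ∀ a b : ℤ, a ≤ b + K → a / (K : ℤ) ≤ b / K + 1 := fun a b h => by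
    have := Int.ediv_le_ediv hK' h
    rwa [Int.add_ediv_of_dvd_right dvd_rfl, Int.ediv_self hK'.ne'] at this
  obtain ⟨h1, h2⟩ := abs_le.1 h
  have := k a b (by linarith)
  have := k b a (by linarith)
  exact abs_le.2 ⟨by linarith, by linarith⟩

theorem stokes_lip {C K : ℕ} (hK : 0 < K) (hS : StokesIneq Γ C) (f g : V → ℤ)
    (hf : ∀ u v, Γ.Adj u v → |f u - f v| ≤ K) (hg : ∀ u v, Γ.Adj u v → |g u - g v| ≤ K)
    {x : V} (c : Γ.Walk x x) : |st f g c| ≤ K * (K * (C * c.length)) := by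
  obtain ⟨F, hF⟩ : ∃ F : (V → ℤ) → ℕ → V → ℤ, ∀ f i v, F f i v = (f v + i) / (K : ℤ) :=
    ⟨_, fun _ _ _ => rfl⟩
  have e : ∀ f : V → ℤ, (fun v => ∑ i ∈ Finset.range K, F f i v) = f := fun f => by
    funext v
    simp only [hF, hermite hK]
  have l : ∀ f : V → ℤ, (∀ u v, Γ.Adj u v → |f u - f v| ≤ K) → ∀ i u v, Γ.Adj u v →
      |F f i u - F f i v| ≤ 1 := fun f hf i u v h => by
    rw [hF, hF]
    exact div_lip hK (by rw [add_sub_add_right_eq_sub]; exact hf u v h)
  have b : ∀ i j, |st (F f i) (F g j) c| ≤ C * c.length := fun i j =>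
    hS _ _ (l f hf i) (l g hg j) x c
  have e2 := st_sum (Finset.range K) (F f) (F g) c
  rw [e, e] at e2
  rw [e2]
  refine (Finset.abs_sum_le_sum_abs _ _).trans ?_
  have b2 : ∀ i ∈ Finset.range K, |∑ j ∈ Finset.range K, st (F f i) (F g j) c| ≤
      (K * (C * c.length) : ℤ) := fun i _ => by
    refine (Finset.abs_sum_le_sum_abs _ _).trans ?_
    have := Finset.sum_le_card_nsmul (Finset.range K) (fun j => |st (F f i) (F g j) c|) _
      fun j _ => b i j
    rwa [Finset.card_range, nsmul_eq_mul] at this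
  have := Finset.sum_le_card_nsmul _ _ _ b2
  rwa [Finset.card_range, nsmul_eq_mul] at this

theorem st_bound {K : ℤ} (hK : 0 ≤ K) (f g : V → ℤ) (hf : ∀ u v, Γ.Adj u v → |f u - f v| ≤ K)
    (hg : ∀ u v, Γ.Adj u v → |g u - g v| ≤ K) (m : ℤ) {a v : V} (q : Γ.Walk a v) :
    ∀ R : ℤ, |f a - m| ≤ R →
      |st f g q - 2 * m * (g v - g a)| ≤ q.length * (2 * (R + K * q.length) * K) := by
  induction q with
  | nil => intro R _; simp [st_nil]
  | @cons a b v h q ih =>
    intro R hR
    have h1 := hf a b h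
    have h2 := hg a b h
    have hb : |f b - m| ≤ R + K := by
      have := abs_sub_le (f b) (f a) m
      rw [abs_sub_comm] at h1
      linarith
    have h3 := ih (R + K) hb
    have R0 : 0 ≤ R := (abs_nonneg _).trans hR
    have e : st f g (Walk.cons h q) - 2 * m * (g v - g a) =
        ((f a - m) + (f b - m)) * (g b - g a) + (st f g q - 2 * m * (g v - g b)) := by
      rw [st_cons]; ring
    have h4 : |((f a - m) + (f b - m)) * (g b - g a)| ≤ (R + (R + K)) * K := by
      rw [abs_mul, abs_sub_comm (g b)]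
      exact mul_le_mul ((abs_add_le _ _).trans (add_le_add hR hb)) h2 (abs_nonneg _) (by linarith)
    rw [e, Walk.length_cons]
    refine (abs_add_le _ _).trans ((add_le_add h4 h3).trans ?_)
    push_cast
    have n0 : (0 : ℤ) ≤ q.length := by positivity
    have := mul_nonneg hK hK
    have := mul_nonneg this n0
    nlinarith

theorem lip_dist (hc : Γ.Connected) {f : V → ℤ} (hf : ∀ u v, Γ.Adj u v → |f u - f v| ≤ 1)
    (a b : V) : |f a - f b| ≤ Γ.dist a b := by
  obtain ⟨p, hp⟩ := hc.exists_walk_length_eq_dist a b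
  rw [← hp]
  clear hp
  induction p with
  | nil => simp
  | @cons a b c h p ih =>
    have := abs_sub_le (f a) (f b) (f c)
    have := hf a b h
    rw [Walk.length_cons]
    push_cast
    linarith

theorem replace (hc : Γ.Connected) {K : ℕ} (h2 : ∀ u v, Γ'.Adj u v → Γ.dist u v ≤ K)
    (f g : V → ℤ) (hf : ∀ u v, Γ.Adj u v → |f u - f v| ≤ K)
    (hg : ∀ u v, Γ.Adj u v → |g u - g v| ≤ K) (hf' : ∀ u v, Γ'.Adj u v → |f u - f v| ≤ 1)
    (hg' : ∀ u v, Γ'.Adj u v → |g u - g v| ≤ 1) {x y : V} (p' : Γ'.Walk x y) :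
    ∃ p : Γ.Walk x y, p.length ≤ K * p'.length ∧
      |st f g p' - st f g p| ≤ (2 * K ^ 4 + 1 : ℕ) * p'.length := by
  induction p' with
  | nil => exact ⟨Walk.nil, by simp, by simp [st_nil]⟩
  | @cons a b c h p' ih =>
    obtain ⟨p, h3, h4⟩ := ih
    obtain ⟨q, hq⟩ := hc.exists_walk_length_eq_dist a b
    have hl : q.length ≤ K := hq ▸ h2 a b h
    refine ⟨q.append p, by rw [Walk.length_append, Walk.length_cons]; nlinarith, ?_⟩
    have K0 : (0 : ℤ) ≤ K := by positivity
    have h5 := st_bound K0 f g hf hg (f a) q 0 (by simp)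
    have hl' : (q.length : ℤ) ≤ K := by exact_mod_cast hl
    have h6 : (q.length : ℤ) * (2 * (0 + K * q.length) * K) ≤ K * (2 * (0 + K * K) * K) := by
      gcongr
    have h7 : |(f b - f a) * (g b - g a)| ≤ 1 := by
      rw [abs_mul, abs_sub_comm (f b), abs_sub_comm (g b)]
      exact mul_le_one₀ (hf' a b h) (abs_nonneg _) (hg' a b h)
    have e : st f g (Walk.cons h p') - st f g (q.append p) = (f b - f a) * (g b - g a) +
        -(st f g q - 2 * f a * (g b - g a)) + (st f g p' - st f g p) := by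
      rw [st_cons, st_append]; ring
    rw [e, Walk.length_cons]
    refine (abs_add_three _ _ _).trans ?_
    rw [abs_neg]
    push_cast at h4 ⊢
    nlinarith

theorem stokes_transfer (hc : Γ.Connected) (hc' : Γ'.Connected) {C K : ℕ} (hK : 0 < K)
    (h1 : ∀ u v, Γ.Adj u v → Γ'.dist u v ≤ K) (h2 : ∀ u v, Γ'.Adj u v → Γ.dist u v ≤ K)
    (hS : StokesIneq Γ C) : StokesIneq Γ' (K * (K * (C * K)) + (2 * K ^ 4 + 1)) := by
  intro f g hf' hg' x c
  have k : ∀ f : V → ℤ, (∀ u v, Γ'.Adj u v → |f u - f v| ≤ 1) → ∀ u v, Γ.Adj u v →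
      |f u - f v| ≤ K := fun f hf u v h =>
    (lip_dist hc' hf u v).trans (by exact_mod_cast h1 u v h)
  obtain ⟨p, h3, h4⟩ := replace hc h2 f g (k f hf') (k g hg') hf' hg' c
  have h5 := stokes_lip hK hS f g (k f hf') (k g hg') p
  have h6 : (p.length : ℤ) ≤ K * c.length := by exact_mod_cast h3
  have h7 : (K : ℤ) * (K * (C * p.length)) ≤ K * (K * (C * (K * c.length))) := by gcongr
  have h8 := abs_add_le (st f g p) (st f g c - st f g p)
  rw [add_sub_cancel] at h8
  show |st f g c| ≤ _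
  push_cast at h4 ⊢
  nlinarith

theorem cayley_dist {G : Type} [Group G] (S : Finset G) {T : Set G}
    (hT : (mulCayley T).Connected) :
    ∃ K, ∀ u v, (mulCayley (S : Set G)).Adj u v → (mulCayley T).dist u v ≤ K := by
  have k : ∀ u s : G, (mulCayley T).dist u (u * s) ≤ (mulCayley T).dist 1 s := fun u s => by
    obtain ⟨p, hp⟩ := hT.exists_walk_length_eq_dist 1 s
    let φ : mulCayley T →g mulCayley T := ⟨fun x => u * x, fun {a b} h => by
      obtain ⟨h0, g, hg, h1⟩ := (mulCayley_adj' T a b).1 h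
      refine (mulCayley_adj' T _ _).2 ⟨fun e => h0 (mul_left_cancel e), g, hg, ?_⟩
      rcases h1 with rfl | rfl
      exacts [Or.inl (mul_assoc _ _ _), Or.inr (mul_assoc _ _ _).symm]⟩
    have := dist_le (p.map φ)
    rw [Walk.length_map, hp] at this
    simpa [φ] using this
  refine ⟨S.sup fun s => (mulCayley T).dist 1 s, fun u v h => ?_⟩
  obtain ⟨-, g, hg, h1⟩ := (mulCayley_adj' _ u v).1 h
  have := Finset.le_sup (f := fun s => (mulCayley T).dist 1 s) hg
  rcases h1 with rfl | rfl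
  · exact (k u g).trans this
  · rw [SimpleGraph.dist_comm]
    exact (k v g).trans this

theorem thin_all {G : Type} [Group G] {S : Finset G} (hS : Subgroup.closure (S : Set G) = ⊤)
    {C : ℕ} (h : StokesIneq (mulCayley (S : Set G)) C) {T : Finset G}
    (hT : Subgroup.closure (T : Set G) = ⊤) :
    ∃ δ, P186.ThinTriangles (mulCayley (T : Set G)) δ := by
  obtain ⟨K, hK⟩ := cayley_dist S (conn G _ hT)
  obtain ⟨K', hK'⟩ := cayley_dist T (conn G _ hS)
  exact graph G _ _ (conn G _ hT) (stokes_transfer (conn G _ hS) (conn G _ hT)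
    (K := K + K' + 1) (by omega) (fun u v a => (hK u v a).trans (by omega))
    (fun u v a => (hK' u v a).trans (by omega)) h)

end Vale.Agent.P186W94
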