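import Vale.Agent.P186W94.Four

/-! P186W94: thin geodesic triangles in the metric graph give thin vertex triangles. -/

namespace Vale.Agent.P186W94

open Set
open scoped ENNReal

variable {V : Type} {Γ : SimpleGraph V}

theorem edist_edge {x y : MetricGraph Γ} {u v : V} {s t : ℝ} (h : Γ.Adj u v)
    (hs : s ∈ Icc (0 : ℝ) 1) (ht : t ∈ Icc (0 : ℝ) 1) (hx : x.1 = bary u v s)
    (hy : y.1 = bary u v t) : edist x y = ENNReal.ofReal |s - t| := by
  refine le_antisymm (edist_le (PL.seg h hs ht hx hy)) (le_edist fun L hL => ?_)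
  have := hL.coord v
  rw [hx, hy, bary_right h.ne, bary_right h.ne] at this
  exact ENNReal.ofReal_le_ofReal this

theorem walk_path {a b : V} (p : Γ.Walk a b) : ∃ c : ℝ → MetricGraph Γ, Lip c p.length ∧
    ∀ i : ℕ, i ≤ p.length → c i = vertex Γ (p.getVert i) := by
  induction p with
  | @nil u => exact ⟨fun _ => vertex Γ u, fun s t _ _ _ => by simp, fun i _ => by simp⟩
  | @cons u v w h p ih =>
    obtain ⟨c', a3, a1⟩ := ih
    obtain ⟨c, b1, b2, b3⟩ := seg_path h (s := 0) (t := 1) ⟨le_rfl, zero_le_one⟩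
      ⟨zero_le_one, le_rfl⟩
    rw [show |(0 : ℝ) - 1| = 1 by simp] at b2 b3
    have a0 : c' 0 = vertex Γ v := by simpa using a1 0 (Nat.zero_le _)
    have e : c 1 = c' 0 := by rw [a0]; exact Subtype.ext (b2.trans (bary_one u v))
    have l := b3.concat a3 e
    refine ⟨_, by rwa [SimpleGraph.Walk.length_cons, Nat.cast_succ, add_comm], fun i hi => ?_⟩
    rcases i with _ | i
    · rw [if_pos (by simp), Nat.cast_zero]
      exact Subtype.ext (b1.trans (bary_zero u v))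
    · rw [SimpleGraph.Walk.getVert_cons_succ, ← a1 i (by simpa using hi)]
      rcases i with _ | i
      · rw [if_pos (by simp)]
        simpa using e
      · rw [if_neg (by push_cast; linarith [Nat.cast_nonneg (α := ℝ) i])]
        congr 1
        push_cast
        ring

theorem walk_geod (hc : Γ.Connected) {a b : V} {p : Γ.Walk a b} (hp : p.length = Γ.dist a b) :
    ∃ P, IsGeodesic P (vertex Γ a) (vertex Γ b) ∧ (∀ v ∈ p.support, vertex Γ v ∈ P) ∧
      ∀ x ∈ P, ∃ v ∈ p.support, edist x (vertex Γ v) ≤ ENNReal.ofReal 1 := by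
  obtain ⟨c, h1, h2⟩ := walk_path p
  have e0 : c 0 = vertex Γ a := by simpa using h2 0 (Nat.zero_le _)
  have e1 : c p.length = vertex Γ b := by simpa using h2 _ le_rfl
  have g := geodesic_of_lip (Nat.cast_nonneg _) h1 (by
    rw [e0, e1, edist_vertex hc, hp, ENNReal.ofReal_natCast])
  rw [e0, e1] at g
  refine ⟨_, g, fun v hv => ?_, ?_⟩
  · obtain ⟨i, rfl, hi⟩ := SimpleGraph.Walk.mem_support_iff_exists_getVert.1 hv
    exact ⟨⟨i, Nat.cast_nonneg _, by exact_mod_cast hi⟩, h2 i hi⟩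
  · rintro _ ⟨r, rfl⟩
    have k := Nat.floor_le r.2.1
    have k' : ⌊r.1⌋₊ ≤ p.length := by exact_mod_cast k.trans r.2.2
    refine ⟨_, p.getVert_mem_support ⌊r.1⌋₊, ?_⟩
    rw [← h2 _ k', edist_comm]
    exact (h1 _ _ (Nat.cast_nonneg _) k r.2.2).trans
      (ENNReal.ofReal_le_ofReal (by linarith [Nat.lt_floor_add_one r.1]))

theorem thin_vertex (hc : Γ.Connected) {δ : ℝ} (h0 : 0 ≤ δ) (h : Thin (MetricGraph Γ) δ) :
    P186.ThinTriangles Γ (⌈δ⌉₊ + 2) := by
  intro x y z p q r hp hq hr v hv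
  obtain ⟨P, p1, p2, -⟩ := walk_geod hc hp
  obtain ⟨Q, q1, -, q3⟩ := walk_geod hc hq
  obtain ⟨R, r1, -, r3⟩ := walk_geod hc hr
  have h1 := Metric.cthickening_subset_thickening' (δ₁ := δ) (δ₂ := δ + 1) (by linarith)
    (by linarith) _ ((h _ _ _ P Q R p1 q1 r1).1 (p2 v hv))
  obtain ⟨u, hu, h2⟩ := (Metric.mem_thickening_iff_exists_edist_lt _ _).1 h1
  obtain ⟨w, hw, h3⟩ : ∃ w, (w ∈ q.support ∨ w ∈ r.support) ∧
      edist u (vertex Γ w) ≤ ENNReal.ofReal 1 := by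
    rcases hu with hu | hu
    · exact (q3 u hu).imp fun _ a => ⟨Or.inl a.1, a.2⟩
    · exact (r3 u hu).imp fun _ a => ⟨Or.inr a.1, a.2⟩
  refine ⟨w, hw, ?_⟩
  have h4 := (edist_triangle _ u _).trans (add_le_add h2.le h3)
  rw [edist_vertex hc, ← ENNReal.ofReal_add (by linarith) zero_le_one, ← ENNReal.ofReal_natCast,
    ENNReal.ofReal_le_ofReal_iff (by linarith)] at h4
  have h5 : (Γ.dist v w : ℝ) ≤ ((⌈δ⌉₊ + 2 : ℕ) : ℝ) := by
    push_cast
    linarith [Nat.le_ceil δ]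
  exact_mod_cast h5

theorem thin_iff (hc : Γ.Connected) :
    (∃ δ : ℝ, 0 ≤ δ ∧ Thin (MetricGraph Γ) δ) ↔ ∃ δ, P186.ThinTriangles Γ δ :=
  ⟨fun ⟨_, a, b⟩ => ⟨_, thin_vertex hc a b⟩, fun ⟨_, b⟩ => ⟨_, by positivity, thin_metric hc b⟩⟩

end Vale.Agent.P186W94
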