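import Mathlib.Combinatorics.SimpleGraph.Cayley
import Mathlib.Combinatorics.SimpleGraph.Metric
import Mathlib.Topology.MetricSpace.Thickening
import Mathlib.Topology.MetricSpace.Isometry
import Mathlib.LinearAlgebra.Finsupp.LinearCombination
import Mathlib.Algebra.Group.Subgroup.Lattice

/-!
P186: the Cayley graph as a metric space, each edge having length 1, and thin geodesic triangles.
-/

namespace Vale.Agent.P186W94

open Set
open scoped ENNReal

section
variable {V : Type} (Γ : SimpleGraph V)

/-- barycentric coordinates of the point with parameter `s` on the edge from `u` to `v` -/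
noncomputable def bary (u v : V) (s : ℝ) : V →₀ ℝ :=
  Finsupp.single u (1 - s) + Finsupp.single v s

/-- The points of the graph `Γ`: the vertices and the points of the edges, in barycentric
coordinates. -/
def MetricGraph : Type :=
  {x : V →₀ ℝ // (∃ u, x = Finsupp.single u 1) ∨
    ∃ u v s, Γ.Adj u v ∧ s ∈ Icc (0 : ℝ) 1 ∧ x = bary u v s}

/-- the point of the graph given by a vertex -/
noncomputable def vertex (u : V) : MetricGraph Γ := ⟨Finsupp.single u 1, Or.inl ⟨u, rfl⟩⟩

/-- `PL Γ x y L`: there is a piecewise linear path of length `L` from `x` to `y`, that is a finite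
concatenation of segments of edges; the segment between the parameters `s` and `t` of an edge has
length `|s - t|`, so that each edge has length 1. -/
inductive PL : MetricGraph Γ → MetricGraph Γ → ℝ → Prop
  | nil (x : MetricGraph Γ) : PL x x 0
  | cons (x x' y : MetricGraph Γ) (u v : V) (s t L : ℝ) : Γ.Adj u v → s ∈ Icc (0 : ℝ) 1 →
      t ∈ Icc (0 : ℝ) 1 → x.1 = bary u v s → x'.1 = bary u v t → PL x' y L →
      PL x y (|s - t| + L)

variable {Γ}

theorem PL.nonneg {x y : MetricGraph Γ} {L : ℝ} (h : PL Γ x y L) : 0 ≤ L := by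
  induction h with
  | nil => exact le_rfl
  | cons x x' y u v s t L _ _ _ _ _ _ ih => exact add_nonneg (abs_nonneg _) ih

theorem PL.trans {x y z : MetricGraph Γ} {L M : ℝ} (h : PL Γ x y L) (h' : PL Γ y z M) :
    PL Γ x z (L + M) := by
  induction h with
  | nil => rwa [zero_add]
  | cons x x' y u v s t L a hs ht hx hx' _ ih =>
    rw [add_assoc]
    exact PL.cons x x' z u v s t _ a hs ht hx hx' (ih h')

theorem PL.symm {x y : MetricGraph Γ} {L : ℝ} (h : PL Γ x y L) : PL Γ y x L := by
  induction h with
  | nil => exact PL.nil _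
  | cons x x' y u v s t L a hs ht hx hx' _ ih =>
    have h := ih.trans (PL.cons x' x x u v t s 0 a ht hs hx' hx (PL.nil x))
    rwa [add_zero, add_comm, abs_sub_comm] at h

/-- linear interpolations of functions that change by at most 1 along edges change by at most the
length along paths -/
theorem PL.lip {x y : MetricGraph Γ} {L : ℝ} (h : PL Γ x y L) (φ : V → ℝ)
    (hφ : ∀ u v, Γ.Adj u v → |φ u - φ v| ≤ 1) :
    |Finsupp.linearCombination ℝ φ x.1 - Finsupp.linearCombination ℝ φ y.1| ≤ L := by
  induction h with
  | nil => simp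
  | cons x x' y u v s t L a hs ht hx hx' _ ih =>
    refine (abs_sub_le _ (Finsupp.linearCombination ℝ φ x'.1) _).trans (add_le_add ?_ ih)
    have e : Finsupp.linearCombination ℝ φ x.1 - Finsupp.linearCombination ℝ φ x'.1 =
        (t - s) * (φ u - φ v) := by
      rw [hx, hx']
      simp only [bary, map_add, Finsupp.linearCombination_single, smul_eq_mul]
      ring
    rw [e, abs_mul, abs_sub_comm t s]
    exact mul_le_of_le_one_right (abs_nonneg _) (hφ u v a)

theorem PL.coord {x y : MetricGraph Γ} {L : ℝ} (h : PL Γ x y L) (w : V) :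
    |x.1 w - y.1 w| ≤ L := by
  classical
  have e : ∀ f : V →₀ ℝ, Finsupp.linearCombination ℝ (fun u => if u = w then (1 : ℝ) else 0) f =
      f w := fun f => by
    simp [Finsupp.linearCombination_apply, Finsupp.sum]
    exact fun h => h.symm
  have h1 := h.lip (fun u => if u = w then (1 : ℝ) else 0) fun u v _ => by
    split_ifs <;> simp
  rwa [e, e] at h1

variable (Γ)

/-- The length metric of the graph: the distance of two points is the infimum of the lengths of the
piecewise linear paths joining them. -/
noncomputable instance : EMetricSpace (MetricGraph Γ) where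
  edist x y := ⨅ (L : ℝ) (_ : PL Γ x y L), ENNReal.ofReal L
  edist_self x := le_antisymm ((iInf₂_le 0 (PL.nil x)).trans (by simp)) zero_le
  edist_comm x y := le_antisymm (le_iInf₂ fun L h => iInf₂_le L h.symm)
    (le_iInf₂ fun L h => iInf₂_le L h.symm)
  edist_triangle x y z := by
    refine ENNReal.le_iInf₂_add_iInf₂ fun L h M h' => ?_
    rw [← ENNReal.ofReal_add h.nonneg h'.nonneg]
    exact iInf₂_le _ (h.trans h')
  eq_of_edist_eq_zero := by
    intro x y h
    refine Subtype.ext (Finsupp.ext fun w => ?_)
    have h1 : ENNReal.ofReal |x.1 w - y.1 w| ≤ ⨅ (L : ℝ) (_ : PL Γ x y L), ENNReal.ofReal L :=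
      le_iInf₂ fun L hL => ENNReal.ofReal_le_ofReal (hL.coord w)
    have h2 : ENNReal.ofReal |x.1 w - y.1 w| = 0 := le_antisymm (h1.trans h.le) zero_le
    exact sub_eq_zero.1 (abs_nonpos_iff.1 (ENNReal.ofReal_eq_zero.1 h2))

end

section
variable {X : Type} [EMetricSpace X]

/-- `P` is a geodesic segment from `x` to `y`: the image of an isometric embedding of an interval
`[0, a]` which maps `0` to `x` and `a` to `y`. -/
def IsGeodesic (P : Set X) (x y : X) : Prop :=
  ∃ (a : ℝ) (ha : 0 ≤ a) (c : Icc (0 : ℝ) a → X), Isometry c ∧ c ⟨0, le_rfl, ha⟩ = x ∧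
    c ⟨a, ha, le_rfl⟩ = y ∧ P = range c

variable (X)

/-- any two points are joined by a geodesic segment -/
def GeodesicSpace : Prop := ∀ x y : X, ∃ P, IsGeodesic P x y

/-- Every geodesic triangle is `δ`-thin: each side lies in the closed `δ`-neighbourhood of the union
of the other two sides. -/
def Thin (δ : ℝ) : Prop :=
  ∀ (x y z : X) (P Q R : Set X), IsGeodesic P x y → IsGeodesic Q y z → IsGeodesic R z x →
    P ⊆ Metric.cthickening δ (Q ∪ R) ∧ Q ⊆ Metric.cthickening δ (R ∪ P) ∧
      R ⊆ Metric.cthickening δ (P ∪ Q)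

end

/-- the Cayley graph of `G` with respect to `S`, each edge of length 1 -/
abbrev Cayley {G : Type} [Group G] (S : Finset G) : Type :=
  MetricGraph (SimpleGraph.mulCayley (S : Set G))

/-- `G` is word-hyperbolic: for some finite generating set there is `δ ≥ 0` such that every geodesic
triangle in the Cayley graph is `δ`-thin. -/
def WordHyperbolic (G : Type) [Group G] : Prop :=
  ∃ S : Finset G, Subgroup.closure (S : Set G) = ⊤ ∧ ∃ δ : ℝ, 0 ≤ δ ∧ Thin (Cayley S) δ

/-- `G` is residually finite: every `g ≠ 1` survives in a finite group. -/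
def ResFinite (G : Type) [Group G] : Prop :=
  ∀ g : G, g ≠ 1 → ∃ (F : Type) (_ : Group F) (_ : Finite F) (φ : G →* F), φ g ≠ 1

end Vale.Agent.P186W94
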