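import Vale.Agent.P186W94.Geo
import Vale.Agent.P186.Defs

/-! P186W94: thin vertex triangles give the four point condition, which gives thin triangles in the
metric graph. -/

namespace Vale.Agent.P186W94

open Set
open scoped ENNReal

/-- twice the Gromov product -/
def gp {X : Type} (d : X → X → ℝ) (w x y : X) : ℝ := d w x + d w y - d x y

/-- the four point condition -/
def Four {X : Type} (d : X → X → ℝ) (C : ℝ) : Prop :=
  ∀ w x y z, gp d w x z ≤ gp d w x y + C ∨ gp d w y z ≤ gp d w x y + C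

section metric

variable {X : Type} [MetricSpace X]

theorem geo_pts {P : Set X} {x y : X} (h : IsGeodesic P x y) :
    (∀ p ∈ P, dist x p + dist p y = dist x y) ∧
      ∀ r, 0 ≤ r → r ≤ dist x y → ∃ q ∈ P, dist x q = r := by
  obtain ⟨a, ha, c, hc, rfl, rfl, rfl⟩ := h
  have e : ∀ s t : Icc (0 : ℝ) a, s.1 ≤ t.1 → dist (c s) (c t) = t.1 - s.1 := fun s t h => by
    rw [hc.dist_eq, Subtype.dist_eq, Real.dist_eq, abs_sub_comm, abs_of_nonneg (sub_nonneg.2 h)]
  refine ⟨?_, fun r h0 h1 => ?_⟩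
  · rintro _ ⟨s, rfl⟩
    rw [e _ _ s.2.1, e _ _ s.2.2, e _ _ ha]
    ring
  · rw [e _ _ ha, sub_zero] at h1
    exact ⟨_, ⟨⟨r, h0, h1⟩, rfl⟩, by rw [e _ _ h0, sub_zero]⟩

theorem close {C : ℝ} (hC : 0 ≤ C) (h : Four (dist : X → X → ℝ) C) {x y z p q : X}
    (hp : dist x p + dist p y = dist x y) (hq : dist x q + dist q z = dist x z)
    (e : dist x q = dist x p) (k : 2 * dist x p ≤ gp dist x y z) : dist p q ≤ 2 * C := by
  have h1 := h x p z y
  have h2 := h x p q z
  simp only [gp] at h1 h2 k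
  rw [dist_comm z y] at h1
  rcases h1 with h1 | h1 <;> rcases h2 with h2 | h2 <;> linarith

theorem side {C : ℝ} (hC : 0 ≤ C) (h : Four (dist : X → X → ℝ) C) {x y z : X} {P Q R : Set X}
    (hP : IsGeodesic P x y) (hQ : IsGeodesic Q y z) (hR : IsGeodesic R z x) :
    P ⊆ Metric.cthickening (2 * C) (Q ∪ R) := by
  intro p hp
  have a := (geo_pts hP).1 p hp
  have t1 := dist_triangle x z y
  have t2 := dist_triangle y z x
  have n1 : 0 ≤ dist x p := dist_nonneg
  have n2 : 0 ≤ dist p y := dist_nonneg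
  have c1 := dist_comm x y
  have c2 := dist_comm y z
  have c3 := dist_comm z x
  by_cases k : 2 * dist x p ≤ gp dist x y z
  · have k' := k
    simp only [gp] at k'
    obtain ⟨q, hq, e⟩ := (geo_pts hR).2 (dist z x - dist x p) (by linarith) (by linarith)
    have b := (geo_pts hR).1 q hq
    refine Metric.mem_cthickening_of_dist_le p q _ _ (Or.inr hq) (close hC h a (z := z) ?_ ?_ k)
    · rw [dist_comm x q, dist_comm q z]
      linarith
    · rw [dist_comm x q]
      linarith
  · simp only [gp, not_le] at k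
    obtain ⟨q, hq, e⟩ := (geo_pts hQ).2 (dist p y) n2 (by linarith)
    have b := (geo_pts hQ).1 q hq
    refine Metric.mem_cthickening_of_dist_le p q _ _ (Or.inl hq)
      (close hC h (x := y) (y := x) (z := z) ?_ b ?_ ?_)
    · rw [dist_comm y p, dist_comm p x]
      linarith
    · rw [e, dist_comm]
    · simp only [gp]
      rw [dist_comm y p]
      linarith

theorem thin_of_four {C : ℝ} (hC : 0 ≤ C) (h : Four (dist : X → X → ℝ) C) : Thin X (2 * C) :=
  fun _ _ _ _ _ _ hP hQ hR => ⟨side hC h hP hQ hR, side hC h hQ hR hP, side hC h hR hP hQ⟩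

end metric

section graph

open SimpleGraph

variable {V : Type} {Γ : SimpleGraph V}

theorem on_geod (hc : Γ.Connected) {x y v : V} {p : Γ.Walk x y} (hp : p.length = Γ.dist x y)
    (hv : v ∈ p.support) : Γ.dist x v + Γ.dist v y = Γ.dist x y := by
  classical
  refine le_antisymm ?_ hc.dist_triangle
  rw [← hp, ← p.take_spec hv, Walk.length_append]
  exact add_le_add (dist_le _) (dist_le _)

theorem cross {A B : V → Prop} {x y : V} (p : Γ.Walk x y) (h : ∀ v ∈ p.support, A v ∨ B v)
    (hx : A x) (hy : B y) : ∃ v ∈ p.support, ∃ v', A v ∧ B v' ∧ Γ.dist v v' ≤ 1 := by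
  induction p with
  | nil => exact ⟨_, by simp, _, hx, hy, by simp⟩
  | @cons a b c hab p ih =>
    rcases h b (by simp) with k | k
    · obtain ⟨v, hv, r⟩ := ih (fun v hv => h v (by simp [hv])) k hy
      exact ⟨v, by simp [hv], r⟩
    · exact ⟨a, by simp, b, hx, k, (dist_eq_one_iff_adj.2 hab).le⟩

theorem four_of_thin (hc : Γ.Connected) {δ : ℕ} (h : P186.ThinTriangles Γ δ) :
    Four (fun a b => (Γ.dist a b : ℝ)) (6 * δ + 2) := by
  intro w x y z
  obtain ⟨p, hp⟩ := hc.exists_walk_length_eq_dist x y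
  obtain ⟨q, hq⟩ := hc.exists_walk_length_eq_dist y w
  obtain ⟨r, hr⟩ := hc.exists_walk_length_eq_dist w x
  obtain ⟨q', hq'⟩ := hc.exists_walk_length_eq_dist y z
  obtain ⟨r', hr'⟩ := hc.exists_walk_length_eq_dist z x
  have tr : ∀ a b c, (Γ.dist a c : ℝ) ≤ Γ.dist a b + Γ.dist b c := fun a b c => by
    exact_mod_cast hc.dist_triangle
  have cm : ∀ a b, (Γ.dist a b : ℝ) = Γ.dist b a := fun a b => by rw [SimpleGraph.dist_comm]
  obtain ⟨v, hv, v', ⟨a, ha, a1⟩, ⟨b, hb, b1⟩, h1⟩ :=
    cross (A := fun v => ∃ a ∈ r.support, Γ.dist v a ≤ δ)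
      (B := fun v => ∃ b ∈ q.support, Γ.dist v b ≤ δ) p (fun v hv => by
        obtain ⟨u, hu | hu, k⟩ := h x y w p q r hp hq hr v hv
        exacts [Or.inr ⟨u, hu, k⟩, Or.inl ⟨u, hu, k⟩])
      ⟨x, by simp, by simp⟩ ⟨y, by simp, by simp⟩
  have e1 : (Γ.dist x v : ℝ) + Γ.dist v y = Γ.dist x y := by exact_mod_cast on_geod hc hp hv
  have e2 : (Γ.dist w a : ℝ) + Γ.dist a x = Γ.dist w x := by exact_mod_cast on_geod hc hr ha
  have e3 : (Γ.dist y b : ℝ) + Γ.dist b w = Γ.dist y w := by exact_mod_cast on_geod hc hq hb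
  have a2 : (Γ.dist v a : ℝ) ≤ δ := by exact_mod_cast a1
  have b2 : (Γ.dist v' b : ℝ) ≤ δ := by exact_mod_cast b1
  have h2 : (Γ.dist v v' : ℝ) ≤ 1 := by exact_mod_cast h1
  have k : 2 * (Γ.dist w v : ℝ) ≤ Γ.dist w x + Γ.dist w y - Γ.dist x y + 4 * δ + 2 := by
    have := tr w a v
    have := tr x a v
    have := tr v v' b
    have := tr w b v
    have := tr v b y
    have := cm a v
    have := cm x a
    have := cm b v
    have := cm w b
    have := cm b y
    have := cm w y
    linarith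
  obtain ⟨u, hu, u1⟩ := h x y z p q' r' hp hq' hr' v hv
  have u2 : (Γ.dist v u : ℝ) ≤ δ := by exact_mod_cast u1
  have u3 := tr w v u
  simp only [gp]
  rcases hu with hu | hu
  · have e : (Γ.dist y u : ℝ) + Γ.dist u z = Γ.dist y z := by exact_mod_cast on_geod hc hq' hu
    have := tr w u y
    have := tr w u z
    have := cm u y
    exact Or.inr (by linarith)
  · have e : (Γ.dist z u : ℝ) + Γ.dist u x = Γ.dist z x := by exact_mod_cast on_geod hc hr' hu
    have := tr w u x
    have := tr w u z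
    have := cm u z
    have := cm x z
    exact Or.inl (by linarith)

end graph

theorem four_near {V X : Type} [MetricSpace X] {d : V → V → ℝ} {C : ℝ} (h : Four d C) (i : V → X)
    (hi : ∀ a b, dist (i a) (i b) = d a b) (hn : ∀ x, ∃ a, dist x (i a) ≤ 1) :
    Four (dist : X → X → ℝ) (C + 12) := by
  choose n hn using hn
  have k : ∀ x y, dist x y ≤ d (n x) (n y) + 2 ∧ d (n x) (n y) ≤ dist x y + 2 := fun x y => by
    have h1 := dist_triangle4 x (i (n x)) (i (n y)) y
    have h2 := dist_triangle4 (i (n x)) x y (i (n y))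
    have := hn x
    have := hn y
    rw [hi, dist_comm (i (n y))] at h1
    rw [hi, dist_comm (i (n x))] at h2
    constructor <;> linarith
  intro w x y z
  obtain ⟨_, _⟩ := k w x
  obtain ⟨_, _⟩ := k w y
  obtain ⟨_, _⟩ := k w z
  obtain ⟨_, _⟩ := k x y
  obtain ⟨_, _⟩ := k x z
  obtain ⟨_, _⟩ := k y z
  have h0 := h (n w) (n x) (n y) (n z)
  simp only [gp] at h0 ⊢
  rcases h0 with h0 | h0
  · exact Or.inl (by linarith)
  · exact Or.inr (by linarith)

/-- thin vertex triangles give thin geodesic triangles in the metric graph -/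
theorem thin_metric {V : Type} {Γ : SimpleGraph V} (hc : Γ.Connected) {δ : ℕ} (h : P186.ThinTriangles Γ δ) :
    Thin (MetricGraph Γ) (2 * (6 * δ + 2 + 12)) := by
  have fin : ∀ x y : MetricGraph Γ, edist x y ≠ ⊤ := fun x y => by
    obtain ⟨L, -, e⟩ := attained hc x y
    rw [e]
    exact ENNReal.ofReal_ne_top
  let _ : MetricSpace (MetricGraph Γ) := EMetricSpace.toMetricSpace fin
  refine thin_of_four (X := MetricGraph Γ) (by positivity)
    (four_near (four_of_thin hc h) (vertex Γ) (fun a b => ?_) fun x => ?_)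
  · rw [dist_edist, edist_vertex hc, ENNReal.toReal_natCast]
  · obtain ⟨a, ha⟩ := near_vertex x
    exact ⟨a, by rw [dist_edist]; exact ENNReal.toReal_le_of_le_ofReal zero_le_one ha⟩

end Vale.Agent.P186W94
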