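import Vale.Agent.P186W94.Inv
import Mathlib.Topology.UnitInterval

/-! P186W94: a connected metric graph is a geodesic space. -/

namespace Vale.Agent.P186W94

open Set
open scoped ENNReal

variable {V : Type} {Γ : SimpleGraph V}

/-- paths that do not expand the distance -/
def Lip {X : Type} [EMetricSpace X] (c : ℝ → X) (a : ℝ) : Prop :=
  ∀ s t, 0 ≤ s → s ≤ t → t ≤ a → edist (c s) (c t) ≤ ENNReal.ofReal (t - s)

theorem Lip.concat {X : Type} [EMetricSpace X] {c c' : ℝ → X} {a b : ℝ} (h : Lip c a)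
    (h' : Lip c' b) (e : c a = c' 0) :
    Lip (fun r => if r ≤ a then c r else c' (r - a)) (a + b) := by
  intro s t h0 hst hb
  by_cases ht : t ≤ a
  · simp only [if_pos ht, if_pos (hst.trans ht)]
    exact h s t h0 hst ht
  · by_cases hs : s ≤ a
    · simp only [if_neg ht, if_pos hs]
      push Not at ht
      have h1 := h s a h0 hs le_rfl
      have h2 := h' 0 (t - a) le_rfl (by linarith) (by linarith)
      rw [← e] at h2
      refine (edist_triangle _ (c a) _).trans ((add_le_add h1 h2).trans ?_)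
      rw [← ENNReal.ofReal_add (by linarith) (by linarith)]
      exact ENNReal.ofReal_le_ofReal (by linarith)
    · simp only [if_neg ht, if_neg hs]
      push Not at hs
      have h2 := h' (s - a) (t - a) (by linarith) (by linarith) (by linarith)
      rwa [show t - a - (s - a) = t - s by ring] at h2

theorem seg_path {u v : V} (h : Γ.Adj u v) {s t : ℝ} (hs : s ∈ Icc (0 : ℝ) 1)
    (ht : t ∈ Icc (0 : ℝ) 1) : ∃ c : ℝ → MetricGraph Γ, (c 0).1 = bary u v s ∧
      (c |s - t|).1 = bary u v t ∧ Lip c |s - t| := by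
  obtain ⟨ε, e1, e2⟩ : ∃ ε : ℝ, |ε| = 1 ∧ s + ε * |s - t| = t := by
    rcases le_total s t with k | k
    · exact ⟨1, abs_one, by rw [abs_of_nonpos (sub_nonpos.2 k)]; ring⟩
    · exact ⟨-1, by simp, by rw [abs_of_nonneg (sub_nonneg.2 k)]; ring⟩
  refine ⟨fun r => pt h (projIcc (0 : ℝ) 1 zero_le_one (s + ε * r))
    (projIcc (0 : ℝ) 1 zero_le_one (s + ε * r)).2, ?_, ?_, fun r r' h0 hr _ => ?_⟩
  · simp only [pt, mul_zero, add_zero, projIcc_of_mem _ hs]
  · simp only [pt, e2, projIcc_of_mem _ ht]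
  · refine (edist_le (PL.seg h (projIcc (0 : ℝ) 1 zero_le_one (s + ε * r)).2
      (projIcc (0 : ℝ) 1 zero_le_one (s + ε * r')).2 rfl rfl)).trans
      (ENNReal.ofReal_le_ofReal ((abs_projIcc_sub_projIcc zero_le_one).trans ?_))
    rw [show s + ε * r - (s + ε * r') = ε * -(r' - r) by ring, abs_mul, e1, one_mul, abs_neg,
      abs_of_nonneg (sub_nonneg.2 hr)]

theorem PL.path {x y : MetricGraph Γ} {L : ℝ} (h : PL Γ x y L) :
    ∃ c : ℝ → MetricGraph Γ, c 0 = x ∧ c L = y ∧ Lip c L := by
  induction h with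
  | nil x => exact ⟨fun _ => x, rfl, rfl, fun s t _ _ _ => by simp⟩
  | cons x x' y u v s t L h hs ht hx hx' hp ih =>
    obtain ⟨c', a1, a2, a3⟩ := ih
    obtain ⟨c, b1, b2, b3⟩ := seg_path h hs ht
    have e : c |s - t| = c' 0 := by rw [a1]; exact Subtype.ext (b2.trans hx'.symm)
    refine ⟨_, ?_, ?_, b3.concat a3 e⟩
    · rw [if_pos (abs_nonneg _)]
      exact Subtype.ext (b1.trans hx.symm)
    · by_cases k : |s - t| + L ≤ |s - t|
      · have z : L = 0 := le_antisymm (by linarith) hp.nonneg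
        rw [if_pos k, z, add_zero, e, ← z, a2]
      · rw [if_neg k, add_sub_cancel_left, a2]

theorem geodesic_of_lip {X : Type} [EMetricSpace X] {c : ℝ → X} {L : ℝ} (h0 : 0 ≤ L)
    (h : Lip c L) (e : edist (c 0) (c L) = ENNReal.ofReal L) :
    IsGeodesic (range fun r : Icc (0 : ℝ) L => c r) (c 0) (c L) := by
  have key : ∀ s t : Icc (0 : ℝ) L, s.1 ≤ t.1 → edist (c s) (c t) = edist s t := by
    intro s t hst
    have e1 : edist s t = ENNReal.ofReal (t.1 - s.1) := by
      rw [Subtype.edist_eq, edist_dist, Real.dist_eq, abs_sub_comm,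
        abs_of_nonneg (sub_nonneg.2 hst)]
    rw [e1]
    refine le_antisymm (h _ _ s.2.1 hst t.2.2) ?_
    have h1 := h 0 s le_rfl s.2.1 s.2.2
    have h2 := h t L t.2.1 t.2.2 le_rfl
    have h3 : ENNReal.ofReal L ≤ ENNReal.ofReal (s.1 - 0) + edist (c s) (c t) +
        ENNReal.ofReal (L - t.1) := by
      rw [← e]
      exact (edist_triangle4 _ (c s) (c t) _).trans (add_le_add (add_le_add h1 le_rfl) h2)
    have h4 : ENNReal.ofReal L = ENNReal.ofReal (s.1 - 0) + ENNReal.ofReal (t.1 - s.1) +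
        ENNReal.ofReal (L - t.1) := by
      rw [← ENNReal.ofReal_add (by linarith [s.2.1]) (by linarith),
        ← ENNReal.ofReal_add (by linarith [t.2.1]) (by linarith [t.2.2])]
      congr 1
      ring
    rw [h4, ENNReal.add_le_add_iff_right ENNReal.ofReal_ne_top,
      ENNReal.add_le_add_iff_left ENNReal.ofReal_ne_top] at h3
    exact h3
  refine ⟨L, h0, fun r => c r, fun s t => ?_, rfl, rfl, rfl⟩
  rcases le_total s.1 t.1 with k | k
  · exact key s t k
  · rw [edist_comm, key t s k, edist_comm]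

theorem geodesicSpace (hc : Γ.Connected) : GeodesicSpace (MetricGraph Γ) := fun x y => by
  obtain ⟨L, h, e⟩ := attained hc x y
  obtain ⟨c, rfl, rfl, h3⟩ := h.path
  exact ⟨_, geodesic_of_lip h.nonneg h3 e⟩

end Vale.Agent.P186W94
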