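import Vale.Agent.P186W94.Defs

/-! P186W94: the infimum in the length metric is attained. -/

namespace Vale.Agent.P186W94

open Set
open scoped ENNReal

variable {V : Type} {Γ : SimpleGraph V}

theorem bary_zero (u v : V) : bary u v 0 = Finsupp.single u 1 := by simp [bary]

theorem bary_one (u v : V) : bary u v 1 = Finsupp.single v 1 := by simp [bary]

theorem bary_swap (u v : V) (s : ℝ) : bary u v s = bary v u (1 - s) := by
  simp [bary, add_comm]

theorem bary_left {u v : V} (h : u ≠ v) (s : ℝ) : bary u v s u = 1 - s := by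
  simp [bary, Finsupp.single_eq_of_ne h]

theorem bary_right {u v : V} (h : u ≠ v) (s : ℝ) : bary u v s v = s := by
  simp [bary, Finsupp.single_eq_of_ne h.symm]

theorem bary_supp {u v a : V} {s : ℝ} (h : bary u v s a ≠ 0) : a = u ∨ a = v := by
  by_contra hc
  push Not at hc
  apply h
  simp [bary, Finsupp.single_eq_of_ne hc.1, Finsupp.single_eq_of_ne hc.2]

theorem bary_coord {u v : V} (h : u ≠ v) (s t : ℝ) (a : V) :
    |bary u v s a - bary u v t a| ≤ |s - t| := by
  by_cases h1 : a = u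
  · subst h1
    rw [bary_left h, bary_left h, show 1 - s - (1 - t) = -(s - t) by ring, abs_neg]
  · by_cases h2 : a = v
    · subst h2
      rw [bary_right h, bary_right h]
    · simp [bary, Finsupp.single_eq_of_ne h1, Finsupp.single_eq_of_ne h2]

/-- the point with parameter `s` on an edge -/
noncomputable def pt {u v : V} (h : Γ.Adj u v) (s : ℝ) (hs : s ∈ Icc (0 : ℝ) 1) :
    MetricGraph Γ := ⟨bary u v s, Or.inr ⟨u, v, s, h, hs, rfl⟩⟩

theorem PL.seg {x y : MetricGraph Γ} {u v : V} {s t : ℝ} (h : Γ.Adj u v)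
    (hs : s ∈ Icc (0 : ℝ) 1) (ht : t ∈ Icc (0 : ℝ) 1) (hx : x.1 = bary u v s)
    (hy : y.1 = bary u v t) : PL Γ x y |s - t| := by
  have := PL.cons x y y u v s t 0 h hs ht hx hy (PL.nil y)
  rwa [add_zero] at this

theorem pl_walk {a b : V} (p : Γ.Walk a b) : PL Γ (vertex Γ a) (vertex Γ b) p.length := by
  induction p with
  | nil => simpa using PL.nil (vertex Γ _)
  | @cons u v w h p ih =>
    have h1 := PL.cons (vertex Γ u) (vertex Γ v) (vertex Γ w) u v 0 1 _ h
      ⟨le_rfl, zero_le_one⟩ ⟨zero_le_one, le_rfl⟩ (bary_zero u v).symm (bary_one u v).symm ih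
    have e : |(0 : ℝ) - 1| + (p.length : ℝ) = ((SimpleGraph.Walk.cons h p).length : ℕ) := by
      simp [add_comm]
    rwa [e] at h1

theorem pl_dist (hc : Γ.Connected) (a b : V) :
    PL Γ (vertex Γ a) (vertex Γ b) (Γ.dist a b) := by
  obtain ⟨p, hp⟩ := hc.exists_walk_length_eq_dist a b
  rw [← hp]
  exact pl_walk p

theorem pl_end (x : MetricGraph Γ) {a : V} (ha : x.1 a ≠ 0) :
    PL Γ x (vertex Γ a) (1 - x.1 a) ∧ 0 ≤ x.1 a := by
  rcases x.2 with ⟨u, hu⟩ | ⟨u, v, s, h, hs, hx⟩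
  · have e : a = u := by
      by_contra hne
      rw [hu, Finsupp.single_eq_of_ne hne] at ha
      exact ha rfl
    subst e
    have e' : x = vertex Γ a := Subtype.ext hu
    rw [hu, Finsupp.single_eq_same, sub_self, e']
    exact ⟨PL.nil _, zero_le_one⟩
  · rw [hx] at ha
    rcases bary_supp ha with rfl | rfl
    · have h1 := PL.seg (y := vertex Γ a) h hs ⟨le_rfl, zero_le_one⟩ hx (bary_zero a v).symm
      rw [sub_zero, abs_of_nonneg hs.1] at h1
      rw [hx, bary_left h.ne, sub_sub_cancel]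
      exact ⟨h1, sub_nonneg.2 hs.2⟩
    · have h1 := PL.seg (y := vertex Γ a) h hs ⟨zero_le_one, le_rfl⟩ hx (bary_one u a).symm
      rw [abs_sub_comm, abs_of_nonneg (sub_nonneg.2 hs.2)] at h1
      rw [hx, bary_right h.ne]
      exact ⟨h1, hs.1⟩

theorem bary_ex {u v : V} (h : u ≠ v) (s : ℝ) :
    ∃ a, bary u v s a ≠ 0 ∧ ∀ t, |bary u v s a - bary u v t a| = |s - t| := by
  by_cases hs : s = 0
  · refine ⟨u, by rw [bary_left h, hs]; norm_num, fun t => ?_⟩
    rw [bary_left h, bary_left h, show 1 - s - (1 - t) = -(s - t) by ring, abs_neg]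
  · exact ⟨v, by rwa [bary_right h], fun t => by rw [bary_right h, bary_right h]⟩

theorem supp_ne (x : MetricGraph Γ) : ∃ a, x.1 a ≠ 0 := by
  rcases x.2 with ⟨u, hu⟩ | ⟨u, v, s, h, hs, hx⟩
  · exact ⟨u, by rw [hu]; simp⟩
  · obtain ⟨a, ha, -⟩ := bary_ex h.ne s
    exact ⟨a, by rwa [hx]⟩

theorem dist_adj (hc : Γ.Connected) {u v : V} (h : Γ.Adj u v) (b : V) :
    (Γ.dist u b : ℝ) ≤ 1 + Γ.dist v b := by
  have h1 : Γ.dist u b ≤ Γ.dist u v + Γ.dist v b := hc.dist_triangle
  rw [SimpleGraph.dist_eq_one_iff_adj.2 h] at h1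
  exact_mod_cast h1

theorem key (hc : Γ.Connected) {u v a : V} (h : Γ.Adj u v) (s : ℝ) (ha : a = u ∨ a = v) (b : V) :
    ∃ a', bary u v s a' ≠ 0 ∧
      (1 - bary u v s a') + Γ.dist a' b ≤ (1 - bary u v s a) + Γ.dist a b := by
  by_cases h0 : bary u v s a = 0
  · rcases ha with rfl | rfl
    · rw [bary_left h.ne] at h0
      have e : s = 1 := by linarith
      refine ⟨v, by rw [bary_right h.ne, e]; norm_num, ?_⟩
      rw [bary_right h.ne, bary_left h.ne, e]
      have := dist_adj hc h.symm b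
      linarith
    · rw [bary_right h.ne] at h0
      refine ⟨u, by rw [bary_left h.ne, h0]; norm_num, ?_⟩
      rw [bary_right h.ne, bary_left h.ne, h0]
      have := dist_adj hc h b
      linarith
  · exact ⟨a, h0, le_rfl⟩

/-- the three shapes of a shortest path -/
def Inv (x y : MetricGraph Γ) (L : ℝ) : Prop :=
  (x = y ∧ 0 ≤ L) ∨
  (∃ u v s t, Γ.Adj u v ∧ s ∈ Icc (0 : ℝ) 1 ∧ t ∈ Icc (0 : ℝ) 1 ∧ x.1 = bary u v s ∧
    y.1 = bary u v t ∧ |s - t| ≤ L) ∨
  ∃ a b, x.1 a ≠ 0 ∧ y.1 b ≠ 0 ∧ (1 - x.1 a) + Γ.dist a b + (1 - y.1 b) ≤ L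

theorem inv_of (hc : Γ.Connected) {x y : MetricGraph Γ} {L : ℝ} (h : PL Γ x y L) :
    Inv x y L := by
  induction h with
  | nil => exact Or.inl ⟨rfl, le_rfl⟩
  | cons x x' y u v s t L h hs ht hx hx' _ ih =>
    have hco : ∀ a, x'.1 a - x.1 a ≤ |s - t| := fun a => by
      have := bary_coord h.ne s t a
      rw [← hx, ← hx', abs_sub_comm] at this
      exact (le_abs_self _).trans this
    rcases ih with ⟨rfl, hL⟩ | ⟨u', v', s', t', h', hs', ht', e1, e2, hL⟩ | ⟨a, b, ha, hb, hL⟩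
    · exact Or.inr (Or.inl ⟨u, v, s, t, h, hs, ht, hx, hx', by linarith⟩)
    · by_cases hv : ∃ a, (a = u ∨ a = v) ∧ x'.1 a = 1
      · obtain ⟨a, ha, h1⟩ := hv
        have ha' : a = u' ∨ a = v' := bary_supp (s := s') (by rw [← e1, h1]; norm_num)
        obtain ⟨b, hb, hb'⟩ := key hc h' t' ha' a
        obtain ⟨a', ha1, ha2⟩ := key hc h s ha b
        rw [← e2] at hb hb'
        rw [← hx] at ha1 ha2
        refine Or.inr (Or.inr ⟨a', b, ha1, hb, ?_⟩)
        have h2 := hco a
        have h3 := bary_coord h'.ne s' t' a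
        rw [← e1, ← e2, h1] at h3
        have h4 := (le_abs_self _).trans h3
        rw [SimpleGraph.dist_self, SimpleGraph.dist_comm] at hb'
        push_cast at hb'
        linarith
      · push Not at hv
        have t0 : t ≠ 0 := fun e => hv u (Or.inl rfl) (by rw [hx', bary_left h.ne, e]; norm_num)
        have t1 : t ≠ 1 := fun e => hv v (Or.inr rfl) (by rw [hx', bary_right h.ne, e])
        have hu : u = u' ∨ u = v' := bary_supp (s := s') (by
          rw [← e1, hx', bary_left h.ne]; exact sub_ne_zero.2 t1.symm)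
        have hw : v = u' ∨ v = v' := bary_supp (s := s') (by
          rw [← e1, hx', bary_right h.ne]; exact t0)
        have hab := abs_sub_le s t
        rcases hu with rfl | rfl
        · rcases hw with rfl | rfl
          · exact absurd rfl h.ne
          · have e : t = s' := by
              rw [← bary_right h.ne t, ← bary_right h.ne s', ← hx', ← e1]
            refine Or.inr (Or.inl ⟨u, v, s, t', h, hs, ht', hx, e2, ?_⟩)
            have := hab t'
            rw [← e] at hL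
            linarith
        · rcases hw with rfl | rfl
          · have e : t = 1 - s' := by
              rw [← bary_right h.ne t, ← bary_left h'.ne s', ← hx', ← e1]
            refine Or.inr (Or.inl ⟨u, v, s, 1 - t', h, hs, ⟨by linarith [ht'.2], by linarith [ht'.1]⟩,
              hx, by rw [e2, bary_swap], ?_⟩)
            have := hab (1 - t')
            rw [show t - (1 - t') = -(s' - t') by rw [e]; ring, abs_neg] at this
            linarith
          · exact absurd rfl h.ne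
    · have ha' : a = u ∨ a = v := bary_supp (s := t) (by rwa [← hx'])
      obtain ⟨a', ha1, ha2⟩ := key hc h s ha' b
      rw [← hx] at ha1 ha2
      refine Or.inr (Or.inr ⟨a', b, ha1, hb, ?_⟩)
      have h2 := hco a
      linarith

/-- a finite set of candidates for the distance -/
def Cand (x y : MetricGraph Γ) : Set ℝ :=
  (fun a => |x.1 a - y.1 a|) '' (x.1.support : Set V) ∪
    (fun p : V × V => (1 - x.1 p.1) + Γ.dist p.1 p.2 + (1 - y.1 p.2)) ''
      ((x.1.support : Set V) ×ˢ (y.1.support : Set V))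

theorem cand_finite (x y : MetricGraph Γ) : (Cand x y).Finite :=
  ((Finset.finite_toSet _).image _).union
    (((Finset.finite_toSet _).prod (Finset.finite_toSet _)).image _)

theorem pl_via (hc : Γ.Connected) {x y : MetricGraph Γ} {a b : V} (ha : x.1 a ≠ 0)
    (hb : y.1 b ≠ 0) : PL Γ x y ((1 - x.1 a) + Γ.dist a b + (1 - y.1 b)) :=
  ((pl_end x ha).1.trans (pl_dist hc a b)).trans (pl_end y hb).1.symm

theorem cand_of (hc : Γ.Connected) {x y : MetricGraph Γ} {L : ℝ} (h : PL Γ x y L) :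
    ∃ M, (M ∈ Cand x y ∧ PL Γ x y M) ∧ M ≤ L := by
  rcases inv_of hc h with ⟨rfl, hL⟩ | ⟨u, v, s, t, h', hs, ht, e1, e2, hL⟩ | ⟨a, b, ha, hb, hL⟩
  · obtain ⟨a, ha⟩ := supp_ne x
    exact ⟨0, ⟨Or.inl ⟨a, Finsupp.mem_support_iff.2 ha, by simp⟩, PL.nil x⟩, hL⟩
  · obtain ⟨a, ha, ha'⟩ := bary_ex h'.ne s
    refine ⟨|s - t|, ⟨Or.inl ⟨a, Finsupp.mem_support_iff.2 (by rwa [e1]), ?_⟩,
      PL.seg h' hs ht e1 e2⟩, hL⟩
    simp only [e1, e2]
    exact ha' t
  · exact ⟨_, ⟨Or.inr ⟨(a, b), ⟨Finsupp.mem_support_iff.2 ha, Finsupp.mem_support_iff.2 hb⟩, rfl⟩,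
      pl_via hc ha hb⟩, hL⟩

theorem edist_le {x y : MetricGraph Γ} {L : ℝ} (h : PL Γ x y L) :
    edist x y ≤ ENNReal.ofReal L := iInf₂_le L h

theorem le_edist {x y : MetricGraph Γ} {r : ℝ≥0∞}
    (h : ∀ L, PL Γ x y L → r ≤ ENNReal.ofReal L) : r ≤ edist x y := le_iInf₂ h

/-- the infimum is attained -/
theorem attained (hc : Γ.Connected) (x y : MetricGraph Γ) :
    ∃ L, PL Γ x y L ∧ edist x y = ENNReal.ofReal L := by
  obtain ⟨a, ha⟩ := supp_ne x
  obtain ⟨b, hb⟩ := supp_ne y
  obtain ⟨M, hM, -⟩ := cand_of hc (pl_via hc ha hb)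
  obtain ⟨L, hL, hmin⟩ := Set.exists_min_image {M | M ∈ Cand x y ∧ PL Γ x y M} id
    ((cand_finite x y).subset fun _ h => h.1) ⟨M, hM⟩
  refine ⟨L, hL.2, le_antisymm (edist_le hL.2) (le_edist fun L' h' => ?_)⟩
  obtain ⟨M', hM', hle⟩ := cand_of hc h'
  exact ENNReal.ofReal_le_ofReal ((hmin M' hM').trans hle)

/-- the vertices carry the metric of the graph -/
theorem edist_vertex (hc : Γ.Connected) (a b : V) :
    edist (vertex Γ a) (vertex Γ b) = (Γ.dist a b : ℝ≥0∞) := by
  rw [← ENNReal.ofReal_natCast]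
  refine le_antisymm (edist_le (pl_dist hc a b)) (le_edist fun L h => ?_)
  have h1 := h.lip (fun w => (Γ.dist w b : ℝ)) fun u v huv => by
    have h2 := dist_adj hc huv b
    have h3 := dist_adj hc huv.symm b
    exact abs_le.2 ⟨by linarith, by linarith⟩
  simp only [vertex, Finsupp.linearCombination_single, smul_eq_mul, one_mul,
    SimpleGraph.dist_self, Nat.cast_zero, sub_zero, Nat.abs_cast] at h1
  exact ENNReal.ofReal_le_ofReal h1

theorem near_vertex (x : MetricGraph Γ) : ∃ a, edist x (vertex Γ a) ≤ ENNReal.ofReal 1 := by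
  obtain ⟨a, ha⟩ := supp_ne x
  obtain ⟨h1, h2⟩ := pl_end x ha
  exact ⟨a, (edist_le h1).trans (ENNReal.ofReal_le_ofReal (by linarith))⟩

end Vale.Agent.P186W94
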