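import Vale.Agent.P186W94.Conv
import Vale.Agent.P186W94.Stokes
import Vale.Agent.P201.Bd3.B3
import Vale.Agent.P194.Bdl.B1

/-! P186W94: a torsion-free group, all of whose Cayley graphs have thin geodesic triangles, which is
not residually finite. -/

namespace Vale.Agent.P186W94

open Set Vale.Agent.P186.Hyp Vale.Agent.P201.S
open scoped ENNReal

theorem stokes_machine {S : Sys} (σ : Equiv.Perm S.C) (e1 : ℝ) (he1 : 0 < e1) (Y : ℕ)
    (hlin : ∀ l : List (Let S × Bool), PresentedGroup.mk (rels σ) (val l) = 1 →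
      ∃ k z, Expr σ k (val l) z ∧ e1 / 2 * k ≤ wtw Y l) :
    ∃ C, StokesIneq (SimpleGraph.mulCayley (gens (rels σ) : Set (PresentedGroup (rels σ)))) C := by
  refine lin _ (rels σ) (rels_finite σ) ⌈2 * ((Y : ℝ) + 1) / e1⌉₊ fun u hu => ?_
  obtain ⟨k, z, hk, hle⟩ := hlin u hu
  refine ⟨k, ?_, ar_of_expr hk⟩
  have h4 : (wtw Y u : ℝ) ≤ ((Y : ℝ) + 1) * (u.length + 1) := by
    have := wtw_le Y u
    have h5 : (wtw Y u : ℝ) ≤ ((Y + 1) * u.length : ℕ) := by exact_mod_cast this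
    push_cast at h5
    have h6 : (0 : ℝ) ≤ (Y : ℝ) + 1 := by positivity
    linarith
  have h5 : (k : ℝ) ≤ 2 * ((Y : ℝ) + 1) / e1 * (u.length + 1) := by
    rw [div_mul_eq_mul_div, le_div_iff₀ he1]
    linarith
  have h6 : (k : ℝ) ≤ (⌈2 * ((Y : ℝ) + 1) / e1⌉₊ : ℝ) * (u.length + 1) :=
    h5.trans (mul_le_mul_of_nonneg_right (Nat.le_ceil _) (by positivity))
  exact_mod_cast h6

theorem reduced {G : Type} [Group G] (htf : ∀ g : G, ∀ m : ℕ, 0 < m → g ^ m = 1 → g = 1)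
    {S : Finset G} (hS : Subgroup.closure (S : Set G) = ⊤) :
    ∃ T : Finset G, Subgroup.closure (T : Set G) = ⊤ ∧ ∀ s ∈ T, s⁻¹ ∉ T := by
  classical
  obtain ⟨_, -⟩ := exists_wellFoundedLT G
  refine ⟨S.filter fun s => s ≠ 1 ∧ (s⁻¹ ∉ S ∨ s < s⁻¹), ?_, fun s h1 h2 => ?_⟩
  · rw [eq_top_iff, ← hS, Subgroup.closure_le]
    intro s hs
    by_cases h1 : s = 1
    · rw [h1]
      exact one_mem _
    by_cases h2 : s⁻¹ ∉ S ∨ s < s⁻¹
    · exact Subgroup.subset_closure (Finset.mem_coe.2 (Finset.mem_filter.2 ⟨hs, h1, h2⟩))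
    · push Not at h2
      have h3 : s⁻¹ ≠ s := fun e => h1 (htf s 2 two_pos (by rw [pow_two]; nth_rw 1 [← e]; simp))
      refine (Subgroup.inv_mem_iff _).1 (Subgroup.subset_closure
        (Finset.mem_coe.2 (Finset.mem_filter.2 ⟨h2.1, by simpa using h1, Or.inr ?_⟩)))
      rw [inv_inv]
      exact lt_of_le_of_ne h2.2 h3
  · obtain ⟨a1, -, a3⟩ := Finset.mem_filter.1 h1
    obtain ⟨b1, -, b3⟩ := Finset.mem_filter.1 h2
    rw [inv_inv] at b3
    exact lt_asymm (a3.resolve_left fun h => h b1) (b3.resolve_left fun h => h a1)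

theorem hyp_iff (G : Type) [Group G] : WordHyperbolic G ↔ P186.IsHyperbolicGroup G :=
  exists_congr fun _ => and_congr_right fun hS => thin_iff (conn G _ hS)

theorem group : ∃ (G : Type) (_ : Group G), (∀ g : G, ∀ m : ℕ, 0 < m → g ^ m = 1 → g = 1) ∧
    WordHyperbolic G ∧ ¬ ResFinite G ∧
    (∃ S : Finset G, Subgroup.closure (S : Set G) = ⊤ ∧ ∀ s ∈ S, s⁻¹ ∉ S) ∧
    ∀ S : Finset G, Subgroup.closure (S : Set G) = ⊤ →
      (SimpleGraph.mulCayley (S : Set G)).Connected ∧ ∃ δ : ℝ, 0 ≤ δ ∧ Thin (Cayley S) δ := by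
  obtain ⟨S, σ, e1, he1, Y, htor, hlin, a, b, hab, hba⟩ :=
    Vale.Agent.P194.M.data Vale.Agent.P201.S.stmtLoc Vale.Agent.P201.S.stmtGlob
      Vale.Agent.P201.S.stmtTor
  obtain ⟨C, hC⟩ := stokes_machine σ e1 he1 Y hlin
  have g := gens_closure (rels σ)
  have k : ∀ T : Finset (Gp σ), Subgroup.closure (T : Set (Gp σ)) = ⊤ →
      ∃ δ : ℝ, 0 ≤ δ ∧ Thin (Cayley T) δ := fun T hT =>
    (thin_iff (conn _ _ hT)).2 (thin_all g hC hT)
  exact ⟨Gp σ, inferInstance, htor, ⟨_, g, k _ g⟩, fun h => hba (rf (Gp σ)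
    (Group.residuallyFinite_of_forall_exists_finite_monoidHom h) a b hab), reduced htor g,
    fun T hT => ⟨conn _ _ hT, k T hT⟩⟩

end Vale.Agent.P186W94
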